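import Vale.Agent.P078.Local.Period.Run
import Vale.Agent.P078.Local.Flip.Super
import Vale.Agent.P078.Local.Graph.Basic

/-!
# Ties of priorities are rare
-/

noncomputable section

namespace Vale.Agent.P078.Local

open Finset

variable {ι : Type*} [Fintype ι] [DecidableEq ι] {p : Par} (N : Net ι p.D)

theorem avg_perm {α : Type*} [Fintype α] (e : α ≃ α) (f : α → ℝ) : avg (fun a => f (e a)) = avg f := by
  simp only [avg, Equiv.sum_comp e f]

open Classical in
/-- Two different sites share their priority with probability `1 / P`. -/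
theorem prob_same_prio (n : Fin p.Nph) {l u : ι} (hlu : u ≠ l) (hP : 0 < p.P) :
    prob (fun ω : Seeds ι p => (ω n u).1 = (ω n l).1) = 1 / p.P := by
  have : NeZero p.P := ⟨hP.ne'⟩
  have hne : Nonempty (Seeds ι p) := ⟨fun _ _ => (0, Equiv.refl _)⟩
  let upd : Fin p.P → Seeds ι p → Seeds ι p := fun j ω =>
    Function.update ω n (Function.update (ω n) u ((ω n u).1 + j, (ω n u).2))
  have hu : ∀ j ω, upd j ω n u = ((ω n u).1 + j, (ω n u).2) := fun j ω => by simp [upd]
  have hl : ∀ j ω, upd j ω n l = ω n l := fun j ω => by simp [upd, Ne.symm hlu]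
  let e : Fin p.P → (Seeds ι p ≃ Seeds ι p) := fun j =>
    { toFun := upd j
      invFun := upd (-j)
      left_inv := fun ω => by
        funext m v
        by_cases hm : m = n
        · subst hm
          by_cases hv : v = u
          · subst hv; simp [upd]
          · simp [upd, hv]
        · simp [upd, hm]
      right_inv := fun ω => by
        funext m v
        by_cases hm : m = n
        · subst hm
          by_cases hv : v = u
          · subst hv; simp [upd]
          · simp [upd, hv]
        · simp [upd, hm] }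
  have hsum : ∑ j : Fin p.P, prob (fun ω : Seeds ι p => (upd j ω n u).1 = (upd j ω n l).1) = 1 := by
    simp only [prob]
    rw [← avg_sum]
    refine Eq.trans ?_ (avg_const (α := Seeds ι p) 1)
    congr 1
    funext ω
    simp only [hu, hl]
    rw [Finset.sum_eq_single ((ω n l).1 - (ω n u).1)]
    · simp
    · intro j _ hj
      rw [if_neg]
      exact fun h => hj (eq_sub_of_add_eq' h)
    · simp
  have hall : ∀ j : Fin p.P, prob (fun ω : Seeds ι p => (upd j ω n u).1 = (upd j ω n l).1)
      = prob (fun ω : Seeds ι p => (ω n u).1 = (ω n l).1) := fun j =>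
    by
      simp only [prob]
      convert avg_perm (e j) (fun ω => if (ω n u).1 = (ω n l).1 then (1 : ℝ) else 0) using 4
      rfl
  simp only [hall, sum_const, card_univ, Fintype.card_fin, nsmul_eq_mul] at hsum
  rw [eq_div_iff (by exact_mod_cast hP.ne')]
  linarith

/-- A tie at a site is rare. -/
theorem prob_tie_le (n : Fin p.Nph) (l : ι) (hP : 0 < p.P) :
    prob (fun ω : Seeds ι p => tie p N ω n l) ≤ p.vol (2 * p.R 0) / p.P := by
  classical
  calc prob (fun ω : Seeds ι p => tie p N ω n l)
      ≤ prob (fun ω : Seeds ι p => ∃ u ∈ (N.ball l (2 * p.R 0)).erase l, (ω n u).1 = (ω n l).1) :=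
        prob_mono fun ω ⟨u, hu, hne, h⟩ => ⟨u, mem_erase.2 ⟨hne, hu⟩, h⟩
    _ ≤ ∑ u ∈ (N.ball l (2 * p.R 0)).erase l, prob (fun ω : Seeds ι p => (ω n u).1 = (ω n l).1) :=
        prob_exists_le _ _
    _ = ((N.ball l (2 * p.R 0)).erase l).card * (1 / (p.P : ℝ)) := by
        rw [sum_congr rfl fun u hu => prob_same_prio n (mem_erase.1 hu).1 hP, sum_const, nsmul_eq_mul]
    _ ≤ p.vol (2 * p.R 0) * (1 / (p.P : ℝ)) := by
        refine mul_le_mul_of_nonneg_right ?_ (by positivity)
        exact le_trans (Nat.cast_le.2 (card_erase_le)) (N.card_ball_le_vol l _)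
    _ = _ := mul_one_div ..

end Vale.Agent.P078.Local
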