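import Vale.Agent.P078.Local.Moves.Congr
import Vale.Agent.P078.Local.Flip.Product

/-!
# The turns of one site: laws, live colours and the quadratic potential
-/

noncomputable section

namespace Vale.Agent.P078.Local

open Finset

variable {ι : Type*} [Fintype ι] [DecidableEq ι] {p : Par} {N : Net ι p.D}
  {ω : Seeds ι p} {σ : Coins ι p} {o : ι}

theorem runOn_h_of_no_turn : ∀ (sls : List (Slot ι p)) (st : St ι p.r),
    (∀ sl ∈ sls, sl.2 ≠ some o) → (runOn p N ω σ st sls).h o = st.h o
  | [], _, _ => rfl
  | (n, none) :: sls, st, h =>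
    runOn_h_of_no_turn sls _ fun sl hsl => h sl (List.mem_cons_of_mem _ hsl)
  | (n, some w) :: sls, st, h => by
    have hne : o ≠ w := fun e => h _ List.mem_cons_self (by rw [e])
    refine (runOn_h_of_no_turn sls (step p N ω st (n, some w) (σ (n, some w))) fun sl hsl =>
      h sl (List.mem_cons_of_mem _ hsl)).trans ?_
    rw [step_some, Function.update_of_ne hne]

/-- Dead colours keep their weight. -/
theorem runOn_dead {c : Fin p.r} : ∀ (sls : List (Slot ι p)) (st : St ι p.r),
    c ∉ live p st.h o → (runOn p N ω σ st sls).h o c = st.h o c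
  | [], _, _ => rfl
  | (n, none) :: sls, st, h => runOn_dead sls (step p N ω st (n, none) (σ (n, none))) h
  | (n, some w) :: sls, st, h => by
    have key : (step p N ω st (n, some w) (σ (n, some w))).h o c = st.h o c := by
      rw [step_some]
      rcases eq_or_ne o w with rfl | hne
      · rw [Function.update_self, Pi.add_apply]
        have : jumpAt p N ω n st o (σ (n, some o)) c = 0 :=
          Classical.byContradiction fun hj => h (mem_live_of_jumpAt_ne ω n st o _ hj)
        rw [this, add_zero]
      · rw [Function.update_of_ne hne]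
    have hdead : c ∉ live p (step p N ω st (n, some w) (σ (n, some w))).h o := by
      simp only [live, mem_filter, mem_univ, true_and, key]
      simpa [live] using h
    exact (runOn_dead sls _ hdead).trans key

theorem live_runOn_subset (sls : List (Slot ι p)) (st : St ι p.r) :
    live p (runOn p N ω σ st sls).h o ⊆ live p st.h o := by
  intro c hc
  by_contra h
  have := live_h0 hc
  rw [runOn_dead sls st h] at this
  exact h (mem_filter.2 ⟨mem_univ c, this⟩)

variable (N ω o)

omit [DecidableEq ι] in
theorem exists_turn (n : Fin p.Nph) :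
    ∃ pre : List (Slot ι p), ∃ post, phaseSlots p ω n = pre ++ (n, some o) :: post :=
  List.append_of_mem ((mem_phaseSlots ω n).2 rfl)

/-- The slots of phase `n` before the turn of `o`. -/
def preTurn (n : Fin p.Nph) : List (Slot ι p) := (exists_turn ω o n).choose

/-- The slots of phase `n` after the turn of `o`. -/
def postTurn (n : Fin p.Nph) : List (Slot ι p) := (exists_turn ω o n).choose_spec.choose

omit [DecidableEq ι] in
theorem phaseSlots_turn (n : Fin p.Nph) :
    phaseSlots p ω n = preTurn ω o n ++ (n, some o) :: postTurn ω o n :=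
  (exists_turn ω o n).choose_spec.choose_spec

/-- The state at the turn of `o` in phase `n`. -/
def turnSt (σ : Coins ι p) (n : Fin p.Nph) : St ι p.r :=
  runOn p N ω σ (stateAt p N ω σ n) (preTurn ω o n)

variable {N ω o}

omit [DecidableEq ι] in
theorem pre_post_ne (n : Fin p.Nph) :
    (∀ sl ∈ preTurn ω o n, sl.1 = n ∧ sl.2 ≠ some o) ∧ ∀ sl ∈ postTurn ω o n, sl.1 = n ∧ sl.2 ≠ some o := by
  have h := phaseSlots_turn ω o n
  have hnd := phaseSlots_nodup ω n
  rw [h, List.nodup_append] at hnd
  obtain ⟨-, hpost, hdis⟩ := hnd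
  have hn : ∀ sl, sl ∈ preTurn ω o n ∨ sl ∈ postTurn ω o n → sl.1 = n := fun sl hsl => by
    refine (mem_phaseSlots ω n).1 ?_
    rw [h]; rcases hsl with hsl | hsl <;> simp [hsl]
  constructor
  · intro sl hsl
    refine ⟨hn sl (Or.inl hsl), fun e => hdis sl hsl _ List.mem_cons_self ?_⟩
    exact Prod.ext (hn sl (Or.inl hsl)) e
  · intro sl hsl
    refine ⟨hn sl (Or.inr hsl), fun e => (List.nodup_cons.1 hpost).1 ?_⟩
    have : sl = (n, some o) := Prod.ext (hn sl (Or.inr hsl)) e
    exact this ▸ hsl

theorem turnSt_h (n : Fin p.Nph) : (turnSt N ω o σ n).h o = (stateAt p N ω σ n).h o :=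
  runOn_h_of_no_turn _ _ fun sl hsl => ((pre_post_ne n).1 sl hsl).2

theorem stateAt_succ_h (n : Fin p.Nph) : (stateAt p N ω σ (n + 1)).h o
    = (turnSt N ω o σ n).h o
      + jumpAt p N ω n (turnSt N ω o σ n) o (σ (n, some o)) := by
  have hs : stateAt p N ω σ (n + 1) = runOn p N ω σ (step p N ω (turnSt N ω o σ n) (n, some o)
      (σ (n, some o))) (postTurn ω o n) := by
    rw [stateAt_succ ω σ n.2, Fin.eta, phaseSlots_turn ω o n, runOn_append]
    rfl
  rw [hs, runOn_h_of_no_turn _ _ fun sl hsl => ((pre_post_ne n).2 sl hsl).2, step_some,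
    Function.update_self]

theorem live_end_subset (n : Fin p.Nph) :
    live p (stateAt p N ω σ p.Nph).h o ⊆ live p (turnSt N ω o σ n).h o := by
  rw [stateAt_split ω σ n.2.le]
  refine (live_runOn_subset _ _).trans fun c hc => ?_
  rw [live, turnSt_h]
  exact hc

theorem turnSt_update (n : Fin p.Nph) (b : Bool) :
    turnSt N ω o (Function.update σ (n, some o) b) n = turnSt N ω o σ n := by
  have hag : AgreeTo (Function.update σ (n, some o) b) σ n := fun sl hsl =>
    Function.update_of_ne (fun e => by rw [e] at hsl; exact lt_irrefl _ hsl) _ _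
  rw [turnSt, turnSt, stateAt_congr hag le_rfl,
    runOn_congr_coins _ fun sl hsl => Function.update_of_ne (fun e => ((pre_post_ne n).1 sl hsl).2
      (by rw [e])) b σ]

open Classical in
/-- Each jump adds `η` to the expected quadratic potential. -/
theorem avg_sq_succ (hp : p.Ok) (n : Fin p.Nph) :
    avg (fun σ : Coins ι p => ∑ c, (stateAt p N ω σ (n + 1)).h o c ^ 2)
      = avg (fun σ : Coins ι p => ∑ c, (stateAt p N ω σ n).h o c ^ 2)
        + p.η * prob (fun σ : Coins ι p => canMove p N ω n (turnSt N ω o σ n) o) := by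
  rw [prob, ← avg_const_mul, ← avg_add, avg_split (n, some o)]
  congr 1
  funext σ
  simp only [stateAt_succ_h, turnSt_update, Function.update_self]
  set t := turnSt N ω o σ n
  have ht : ∀ c, t.h o c = (stateAt p N ω σ n).h o c := fun c => by rw [← turnSt_h]
  have hneg : jumpAt p N ω n t o false = -jumpAt p N ω n t o true := jumpAt_neg ω n t o true
  simp only [hneg, Pi.add_apply, Pi.neg_apply, ← ht]
  by_cases hm : canMove p N ω n t o
  · rw [if_pos hm, mul_one, ← sum_sq_jumpAt (N := N) ω n t o true hp.η_pos.le hm,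
      ← sum_add_distrib, ← sum_add_distrib, eq_comm, eq_div_iff two_ne_zero, sum_mul]
    exact sum_congr rfl fun c _ => by ring
  · rw [if_neg hm, mul_zero, add_zero, jumpAt_of_not hm]
    simp

theorem sq_le_one (hp : p.Ok) (σ : Coins ι p) (k : ℕ) :
    ∑ c, (stateAt p N ω σ k).h o c ^ 2 ≤ 1 := by
  have h := stateAt_isLaw (N := N) ω σ hp k o (mem_univ o)
  calc ∑ c, (stateAt p N ω σ k).h o c ^ 2 ≤ ∑ c, (stateAt p N ω σ k).h o c := by
        refine sum_le_sum fun c _ => ?_
        have h1 : (stateAt p N ω σ k).h o c ≤ 1 := by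
          rw [← h.2]; exact single_le_sum (fun d _ => h.1 d) (mem_univ c)
        nlinarith [h.1 c]
    _ = 1 := h.2

open Classical in
/-- **Moves.** The expected number of jumps is at most `1 / η`. -/
theorem sum_prob_move_le (hp : p.Ok) :
    p.η * ∑ n : Fin p.Nph, prob (fun σ : Coins ι p => canMove p N ω n (turnSt N ω o σ n) o) ≤ 1 := by
  set F : ℕ → ℝ := fun k => avg (fun σ : Coins ι p => ∑ c, (stateAt p N ω σ k).h o c ^ 2)
  have h : ∀ n : Fin p.Nph, p.η * prob (fun σ : Coins ι p => canMove p N ω n (turnSt N ω o σ n) o)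
      = F (n + 1) - F n := fun n => by
    have := avg_sq_succ (N := N) (ω := ω) (o := o) hp n
    simp only [F]; linarith
  rw [mul_sum, sum_congr rfl fun n _ => h n, Fin.sum_univ_eq_sum_range fun k => F (k + 1) - F k,
    sum_range_sub]
  have h1 : F p.Nph ≤ 1 :=
    (avg_mono fun σ => sq_le_one hp σ p.Nph).trans_eq (avg_const (α := Coins ι p) 1)
  have h2 : 0 ≤ F 0 := avg_nonneg fun σ => sum_nonneg fun c _ => sq_nonneg _
  linarith

end Vale.Agent.P078.Local
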