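import Vale.Agent.P078.Local.Moves.Skips
import Vale.Agent.P078.Local.Moves.Tie
import Vale.Agent.P078.Local.Moves.Turns

/-!
# `StmtMoves`: a site is rarely unresolved on a good history
-/

noncomputable section

namespace Vale.Agent.P078.Local

open Finset

variable {ι : Type*} [Fintype ι] [DecidableEq ι] {p : Par} {N : Net ι p.D}
  {ω : Seeds ι p} {o : ι}

/-- An unresolved good site jumps at every turn that is neither tied nor in a failed period. -/
theorem canMove_of (hC : Iface.StmtChain (ι := ι) p) (hp : p.Ok) (hs : Iface.StartOK p N o)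
    {σ : Coins ι p} (hg : GoodTo p N ω σ o p.Nph)
    (hlive : 8 ≤ (live p (stateAt p N ω σ p.Nph).h o).card) {n : Fin p.Nph}
    (htie : ¬ tie p N ω n o) (hno : ∀ i s, ¬ failAt N ω o i s ((n : ℕ) - (n : ℕ) % p.len i) σ) :
    canMove p N ω n (turnSt N ω o σ n) o := by
  have key : ∀ i s, startOK p N i s (p.floor i n) ((turnSt N ω o σ n).snap i) o ∧
      turnOK p N i s (p.floor i n) (turnSt N ω o σ n).h o := by
    intro i s
    set a := (n : ℕ) - (n : ℕ) % p.len i with ha
    have hl := len_pos hp i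
    have hd : p.len i ∣ a := Nat.dvd_sub_mod _
    have han : a ≤ n := Nat.sub_le _ _
    have hlt : (n : ℕ) < a + p.len i := by
      have := Nat.mod_lt (n : ℕ) hl; have := Nat.mod_le (n : ℕ) (p.len i); omega
    have haN : a + p.len i ≤ p.Nph := by
      obtain ⟨q, hq⟩ := hd
      obtain ⟨Q, hQ⟩ := len_dvd_Nph (p := p) i
      have hlt' : q < Q := Nat.lt_of_mul_lt_mul_left (a := p.len i) (by
        rw [← hq, ← hQ]; exact lt_of_le_of_lt han n.2)
      rw [hq, hQ, ← Nat.mul_succ]
      exact Nat.mul_le_mul_left _ hlt'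
    have hga : GoodTo p N ω σ o a := hg.mono (han.trans n.2.le)
    have hfl : p.floor i n = p.floor i a := floor_eq_of_period hp hd han hlt
    have hstart : startOK p N i s (p.floor i a) (stateAt p N ω σ a).h o :=
      Classical.byContradiction fun h => hno i s ⟨hga, h⟩
    -- the turn as a prefix of the period
    have hseg : seg p ω a (a + p.len i) = (seg p ω a n ++ preTurn ω o n)
        ++ ((n, some o) :: postTurn ω o n ++ seg p ω ((n : ℕ) + 1) (a + p.len i)) := by
      rw [seg_split ω han (le_of_lt hlt), seg_split ω (Nat.le_succ n) hlt, seg_succ ω n.2, Fin.eta,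
        phaseSlots_turn ω o n]
      simp
    set k := (seg p ω a n ++ preTurn ω o n).length with hk
    have hturn : turnSt N ω o σ n
        = runOn p N ω σ (stateAt p N ω σ a) ((seg p ω a (a + p.len i)).take k) := by
      rw [hseg, hk, List.take_left, runOn_append, ← stateAt_split ω σ han]
      rfl
    have hk0 : 0 < k := by
      rcases Nat.eq_zero_or_pos k with h0 | h0
      · exfalso
        have hp0 : preTurn ω o n = [] := List.eq_nil_of_length_eq_zero (by
          rw [hk, List.length_append] at h0; omega)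
        have := phaseSlots_turn ω o n
        rw [hp0, phaseSlots, List.nil_append, List.cons.injEq] at this
        exact absurd this.1 (by simp)
      · exact h0
    obtain ⟨hc, hrt⟩ := goodTo_ctx (s := s) hC hp hs hd haN hga
    have hR := hp.rt_ge i
    rw [hfl, hturn, snap_runOn (N := N) ω _ σ hd (by omega) hl hk0]
    refine ⟨hstart, turn_auto ω σ lineStmt Slice.order Slice.tail hc hstart
      ((N.ball_mono (by omega)).trans hrt) ?_ k⟩
    exact (hg.2 i s a hd haN).mono_left (N.ball_mono (by omega))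
  exact ⟨htie, fun i s => (key i s).1, fun i s => (key i s).2,
    hlive.trans (card_le_card (live_end_subset n))⟩

theorem sum_period_range (l m : ℕ) (f : ℕ → ℝ) :
    ∑ n ∈ range (m * l), f (n - n % l) = l * ∑ j ∈ range m, f (j * l) := by
  induction m with
  | zero => simp
  | succ m ih =>
    rw [Nat.succ_mul, sum_range_add, ih, sum_range_succ, mul_add]
    congr 1
    rw [sum_congr rfl fun x hx => show f (m * l + x - (m * l + x) % l) = f (m * l) by
      rw [Nat.add_mod, Nat.mul_mod_left, Nat.zero_add, Nat.mod_mod, Nat.mod_eq_of_lt (mem_range.1 hx),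
        Nat.add_sub_cancel]]
    simp

theorem len_le_rise (hp : p.Ok) (i : Fin 3) :
    (p.len i : ℝ) ≤ 64 * p.Nph / p.t0 * p.rise i := by
  have hN : (0 : ℝ) < p.Nph := Nat.cast_pos.2 (Par.Nph_pos hp)
  have ht := hp.t0_pos
  have k1 : (0 : ℝ) ≤ p.K1 := Nat.cast_nonneg _
  have k2 : (0 : ℝ) ≤ (p.K1 : ℝ) * p.K2 := by positivity
  fin_cases i <;>
    simp [Par.len, Par.rise] <;> field_simp <;> nlinarith

open Classical in
/-- The bound for fixed seeds. -/
theorem prob_unresolved_le (hC : Iface.StmtChain (ι := ι) p) (hp : p.Ok) (hs : Iface.StartOK p N o)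
    (ω : Seeds ι p) :
    (p.Nph : ℝ) * prob (fun σ : Coins ι p =>
        GoodTo p N ω σ o p.Nph ∧ 8 ≤ (live p (stateAt p N ω σ p.Nph).h o).card)
      ≤ 1 / p.η + ∑ n : Fin p.Nph, (if tie p N ω n o then (1 : ℝ) else 0)
        + 2 ^ 14 * p.Nph / (p.t0 ^ 2 * p.M) := by
  set P := prob (fun σ : Coins ι p =>
    GoodTo p N ω σ o p.Nph ∧ 8 ≤ (live p (stateAt p N ω σ p.Nph).h o).card)
  have h1 : ∀ n : Fin p.Nph, P ≤ prob (fun σ : Coins ι p => canMove p N ω n (turnSt N ω o σ n) o)
      + (if tie p N ω n o then (1 : ℝ) else 0)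
      + ∑ is : Fin 3 × Bool, prob (failAt N ω o is.1 is.2 ((n : ℕ) - (n : ℕ) % p.len is.1)) := by
    intro n
    by_cases ht : tie p N ω n o
    · rw [if_pos ht]
      have := prob_le_one (fun σ : Coins ι p =>
        GoodTo p N ω σ o p.Nph ∧ 8 ≤ (live p (stateAt p N ω σ p.Nph).h o).card)
      have := prob_nonneg (fun σ : Coins ι p => canMove p N ω n (turnSt N ω o σ n) o)
      have : 0 ≤ ∑ is : Fin 3 × Bool, prob (failAt N ω o is.1 is.2 ((n : ℕ) - (n : ℕ) % p.len is.1)) :=
        sum_nonneg fun _ _ => prob_nonneg _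
      simp only [P]
      linarith
    · rw [if_neg ht, add_zero]
      refine le_trans (prob_mono (q := fun σ => canMove p N ω n (turnSt N ω o σ n) o ∨
        ∃ is ∈ (univ : Finset (Fin 3 × Bool)),
          failAt N ω o is.1 is.2 ((n : ℕ) - (n : ℕ) % p.len is.1) σ) fun σ hσ => ?_)
        ((prob_or_le _ _).trans (add_le_add le_rfl (prob_exists_le _ _)))
      by_cases hf : ∃ is ∈ (univ : Finset (Fin 3 × Bool)),
          failAt N ω o is.1 is.2 ((n : ℕ) - (n : ℕ) % p.len is.1) σ
      · exact Or.inr hf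
      · exact Or.inl (canMove_of hC hp hs hσ.1 hσ.2 ht fun i s h => hf ⟨(i, s), mem_univ _, h⟩)
  have h2 := sum_le_sum (s := univ) fun n _ => h1 n
  simp only [sum_const, card_univ, Fintype.card_fin, nsmul_eq_mul, sum_add_distrib] at h2
  rw [sum_comm] at h2
  have hη := hp.η_pos
  have hmoves : ∑ n : Fin p.Nph, prob (fun σ : Coins ι p => canMove p N ω n (turnSt N ω o σ n) o)
      ≤ 1 / p.η := by
    rw [le_div_iff₀ hη, mul_comm]; exact sum_prob_move_le hp
  have hlost : ∀ is : Fin 3 × Bool,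
      ∑ n : Fin p.Nph, prob (failAt N ω o is.1 is.2 ((n : ℕ) - (n : ℕ) % p.len is.1))
        ≤ 768 * p.Nph / (p.t0 ^ 2 * p.M) := by
    rintro ⟨i, s⟩
    have ht := hp.t0_pos
    have hM : 0 < p.M := by linarith [hp.M_ge]
    have hρ := Par.rise_pos hp i
    have hmul : p.Nph / p.len i * p.len i = p.Nph := Nat.div_mul_cancel (len_dvd_Nph i)
    rw [Fin.sum_univ_eq_sum_range fun n => prob (failAt N ω o i s (n - n % p.len i))]
    have hsp := sum_period_range (p.len i) (p.Nph / p.len i) fun a => prob (failAt N ω o i s a)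
    rw [hmul] at hsp
    rw [hsp]
    set X := ∑ j ∈ range (p.Nph / p.len i), prob (failAt N ω o i s (j * p.len i))
    have hX : 0 ≤ X := sum_nonneg fun _ _ => prob_nonneg _
    have hskip : p.M * (p.rise i / 4) * X ≤ 3 / p.t0 := sum_prob_fail_le hC hp hs
    have hlr := mul_le_mul_of_nonneg_right (len_le_rise hp i) hX
    refine hlr.trans ?_
    have e : 768 * (p.Nph : ℝ) / (p.t0 ^ 2 * p.M) = 64 * p.Nph / p.t0 * (4 / p.M) * (3 / p.t0) := by
      field_simp; ring
    rw [e, mul_assoc, mul_assoc _ (4 / p.M)]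
    refine mul_le_mul_of_nonneg_left ?_ (by positivity)
    calc p.rise i * X = 4 / p.M * (p.M * (p.rise i / 4) * X) := by field_simp
      _ ≤ _ := mul_le_mul_of_nonneg_left hskip (by positivity)
  have hlost' := sum_le_sum (s := univ) fun is _ => hlost is
  simp only [sum_const, card_univ, Fintype.card_prod, Fintype.card_fin, Fintype.card_bool,
    nsmul_eq_mul] at hlost'
  have hnn : 0 ≤ (p.Nph : ℝ) / (p.t0 ^ 2 * p.M) := by have := hp.M_ge; positivity
  have e1 : (2 : ℝ) ^ 14 * p.Nph / (p.t0 ^ 2 * p.M) = 2 ^ 14 * ((p.Nph : ℝ) / (p.t0 ^ 2 * p.M)) := by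
    ring
  have e2 : (768 : ℝ) * p.Nph / (p.t0 ^ 2 * p.M) = 768 * ((p.Nph : ℝ) / (p.t0 ^ 2 * p.M)) := by ring
  rw [e2] at hlost'
  rw [e1]
  push_cast at hlost'
  linarith

open Classical in
/-- `Iface.StmtMoves`, given the chain. -/
theorem stmtMoves_of (hC : Iface.StmtChain (ι := ι) p) : Iface.StmtMoves (ι := ι) p := by
  intro hp N o hs
  have hN : (0 : ℝ) < p.Nph := Nat.cast_pos.2 (Par.Nph_pos hp)
  have : Nonempty (Seeds ι p) := ⟨fun _ _ => (⟨0, hp.P_pos⟩, Equiv.refl _)⟩
  rw [prob_prod]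
  have h : avg (fun ω : Seeds ι p => (p.Nph : ℝ) * prob (fun σ : Coins ι p =>
      GoodTo p N ω σ o p.Nph ∧ 8 ≤ (live p (stateAt p N ω σ p.Nph).h o).card))
      ≤ 1 / p.η + p.Nph * (p.vol (2 * p.R 0) / p.P) + 2 ^ 14 * p.Nph / (p.t0 ^ 2 * p.M) := by
    refine (avg_mono fun ω => prob_unresolved_le hC hp hs ω).trans ?_
    rw [avg_add, avg_add, avg_const, avg_const, avg_sum]
    gcongr
    refine (sum_le_sum fun n _ => prob_tie_le N n o hp.P_pos).trans_eq ?_
    simp
  rw [avg_const_mul] at h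
  refine le_of_mul_le_mul_left (h.trans_eq ?_) hN
  rw [Par.failU]
  field_simp
  ring

end Vale.Agent.P078.Local
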