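import Vale.Agent.P078.Local.Period.Run
import Vale.Agent.P078.Local.Def.Chain
import Vale.Agent.P078.Local.Flip.Super

/-!
# The past does not see later coins
-/

noncomputable section

namespace Vale.Agent.P078.Local

variable {ι : Type*} [Fintype ι] [DecidableEq ι] {p : Par} {N : Net ι p.D}
  {ω : Seeds ι p} {σ τ : Coins ι p}

/-- The coins of the phases before `n` agree. -/
def AgreeTo (σ τ : Coins ι p) (n : ℕ) : Prop := ∀ sl : Slot ι p, (sl.1 : ℕ) < n → σ sl = τ sl

omit [Fintype ι] [DecidableEq ι] in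
theorem AgreeTo.mono {n m : ℕ} (h : AgreeTo σ τ n) (hm : m ≤ n) : AgreeTo σ τ m :=
  fun sl hsl => h sl (hsl.trans_le hm)

theorem runOn_congr_coins (st : St ι p.r) {sls : List (Slot ι p)} (h : ∀ sl ∈ sls, σ sl = τ sl) :
    runOn p N ω σ st sls = runOn p N ω τ st sls :=
  foldl_congr_coins (fun st sl b => step p N ω st sl b) sls st h

theorem stateAt_congr {n k : ℕ} (h : AgreeTo σ τ n) (hk : k ≤ n) :
    stateAt p N ω σ k = stateAt p N ω τ k :=
  runOn_congr_coins _ fun sl hsl => h sl (((mem_seg ω).1 hsl).2.trans_le hk)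

theorem perEx_congr {n : ℕ} {i : Fin 3} {s : Bool} {a : ℕ} {S : Finset ι} {st : St ι p.r}
    (h : AgreeTo σ τ n) (ha : a + p.len i ≤ n) :
    perEx p N ω σ i s a S st = perEx p N ω τ i s a S st := by
  unfold perEx axRun
  rw [foldl_congr_coins (fun q sl b => axStep p N ω i s S (watched p N i s (p.floor i a) st.h S) q sl b)
    (σ := σ) (τ := τ) _ _ fun sl hsl => h sl (((mem_seg ω).1 hsl).2.trans_le ha)]

theorem perOut_congr {n : ℕ} {i : Fin 3} {s : Bool} {a : ℕ} {S D : Finset ι} {st : St ι p.r}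
    (h : AgreeTo σ τ n) (ha : a + p.len i ≤ n) :
    perOut p N ω σ i s a S D st = perOut p N ω τ i s a S D st := by
  simp only [perOut, perEx_congr h ha]

theorem sets_congr (hp : p.Ok) (o : ι) (s : Bool) {n : ℕ} (h : AgreeTo σ τ n) :
    ∀ k ≤ n, sets p N ω σ o s k = sets p N ω τ o s k
  | 0, _ => rfl
  | k + 1, hk => by
    have ih := sets_congr hp o s h k (by omega)
    simp only [sets, ih]
    have e0 : ∀ S : Finset ι, perOut p N ω σ 0 s k S ∅ (stateAt p N ω σ k)
        = perOut p N ω τ 0 s k S ∅ (stateAt p N ω τ k) := fun S => by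
      rw [stateAt_congr h (by omega), perOut_congr h (by simp [Par.len]; omega)]
    simp only [e0]
    by_cases h1 : p.K1 ∣ k + 1
    · have hle1 : p.K1 ≤ k + 1 := Nat.le_of_dvd (by omega) h1
      have e1 : ∀ S D : Finset ι,
          perOut p N ω σ 1 s (k + 1 - p.K1) S D (stateAt p N ω σ (k + 1 - p.K1))
            = perOut p N ω τ 1 s (k + 1 - p.K1) S D (stateAt p N ω τ (k + 1 - p.K1)) := fun S D => by
        rw [stateAt_congr h (by omega), perOut_congr h (by simp [Par.len]; omega)]
      simp only [e1]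
      by_cases h2 : p.len 2 ∣ k + 1
      · have hle2 : p.len 2 ≤ k + 1 := Nat.le_of_dvd (by omega) h2
        have e2 : ∀ S D : Finset ι,
            perOut p N ω σ 2 s (k + 1 - p.len 2) S D (stateAt p N ω σ (k + 1 - p.len 2))
              = perOut p N ω τ 2 s (k + 1 - p.len 2) S D (stateAt p N ω τ (k + 1 - p.len 2)) :=
          fun S D => by rw [stateAt_congr h (by omega), perOut_congr h (by omega)]
        simp only [e2]
      · simp only [if_neg h2]
    · have h2 : ¬ p.len 2 ∣ k + 1 := fun h2 => h1 ((Dvd.intro p.K2 rfl).trans h2)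
      simp only [if_neg h1, if_neg h2]

theorem goodTo_congr (hp : p.Ok) (o : ι) {n : ℕ} (h : AgreeTo σ τ n) :
    GoodTo p N ω σ o n ↔ GoodTo p N ω τ o n := by
  unfold GoodTo
  constructor
  · rintro ⟨h1, h2⟩
    refine ⟨fun k hk i s => ?_, fun i s a hd ha => ?_⟩
    · rw [← sets_congr hp o s h k hk]; exact h1 k hk i s
    · rw [← sets_congr hp o s h a (by omega), ← stateAt_congr h (by omega : a ≤ n), ← perEx_congr h ha]
      exact h2 i s a hd ha
  · rintro ⟨h1, h2⟩
    refine ⟨fun k hk i s => ?_, fun i s a hd ha => ?_⟩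
    · rw [sets_congr hp o s h k hk]; exact h1 k hk i s
    · rw [sets_congr hp o s h a (by omega), stateAt_congr h (by omega : a ≤ n), perEx_congr h ha]
      exact h2 i s a hd ha

theorem GoodTo.mono {o : ι} {n m : ℕ} (h : GoodTo p N ω σ o n) (hm : m ≤ n) :
    GoodTo p N ω σ o m :=
  ⟨fun k hk => h.1 k (hk.trans hm), fun i s a hd ha => h.2 i s a hd (ha.trans hm)⟩

end Vale.Agent.P078.Local
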