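import Vale.Agent.P078.Local.Period.Floor

/-!
# Successive floors of one level rise by at least the rise of the level
-/

noncomputable section

namespace Vale.Agent.P078.Local

variable {p : Par}

theorem floor2_step (hp : p.Ok) {a : ℕ} :
    p.floor 2 a + p.rise 2 = p.floor 2 (a + p.len 2) := by
  have h := Nat.add_div_right a (len_pos hp 2)
  simp only [Par.floor, Fin.isValue, Matrix.cons_val, h]
  push_cast
  ring

theorem floor1_eq (n : ℕ) :
    p.floor 1 n = p.floor 2 n + (n % p.len 2 / p.K1 : ℕ) * p.rise 1 := rfl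

theorem floor0_eq (n : ℕ) :
    p.floor 0 n = p.floor 1 n + (n % p.K1 : ℕ) * p.rise 0 := rfl

theorem K2_rise1_le (hp : p.Ok) : (p.K2 : ℝ) * p.rise 1 ≤ p.rise 2 := by
  have : (0 : ℝ) ≤ p.t0 / (64 * p.Nph) := by have := hp.t0_pos; positivity
  show (p.K2 : ℝ) * (8 * p.K1 * (p.t0 / (64 * p.Nph))) ≤ 64 * p.K1 * p.K2 * (p.t0 / (64 * p.Nph))
  have h : (0 : ℝ) ≤ p.K1 * p.K2 := by positivity
  nlinarith [mul_nonneg h this]

theorem K1_rise0_le (hp : p.Ok) : (p.K1 : ℝ) * p.rise 0 ≤ p.rise 1 := by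
  have : (0 : ℝ) ≤ p.t0 / (64 * p.Nph) := by have := hp.t0_pos; positivity
  show (p.K1 : ℝ) * (p.t0 / (64 * p.Nph)) ≤ 8 * p.K1 * (p.t0 / (64 * p.Nph))
  nlinarith [mul_nonneg (Nat.cast_nonneg p.K1 : (0 : ℝ) ≤ p.K1) this]

theorem floor_step (hp : p.Ok) {i : Fin 3} {a : ℕ} (ha : p.len i ∣ a) :
    p.floor i a + p.rise i ≤ p.floor i (a + p.len i) := by
  have hK1 := hp.K1_pos
  have hK2 := hp.K2_pos
  have hl2 : p.len 2 = p.K1 * p.K2 := rfl
  -- a step of level 1
  have h1 : ∀ b : ℕ, p.K1 ∣ b → p.floor 1 b + p.rise 1 ≤ p.floor 1 (b + p.K1) := by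
    rintro b ⟨q, rfl⟩
    have hm : ∀ q : ℕ, p.K1 * q % p.len 2 / p.K1 = q % p.K2 := fun q => by
      rw [hl2, Nat.mul_mod_mul_left, Nat.mul_div_cancel_left _ hK1]
    have hd : ∀ q : ℕ, p.K1 * q / p.len 2 = q / p.K2 := fun q => by
      rw [hl2, Nat.mul_div_mul_left _ _ hK1]
    rw [show p.K1 * q + p.K1 = p.K1 * (q + 1) by ring, floor1_eq, floor1_eq, hm, hm]
    simp only [Par.floor, Fin.isValue, Matrix.cons_val, hd]
    have hq : q % p.K2 < p.K2 := Nat.mod_lt _ hK2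
    rcases Nat.lt_or_ge (q % p.K2 + 1) p.K2 with hlt | hge
    · have e1 : (q + 1) % p.K2 = q % p.K2 + 1 := by
        rw [Nat.add_mod, Nat.one_mod_eq_one.2 (by omega), Nat.mod_eq_of_lt hlt]
      have e2 : (q + 1) / p.K2 = q / p.K2 := by
        rw [Nat.succ_div]; simp [Nat.dvd_iff_mod_eq_zero, e1]
      rw [e1, e2]; push_cast; linarith
    · have e0 : q % p.K2 + 1 = p.K2 := by omega
      have hdvd : p.K2 ∣ q + 1 := ⟨q / p.K2 + 1, by
        have := Nat.div_add_mod q p.K2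
        rw [Nat.mul_add, Nat.mul_one]; omega⟩
      have e1 : (q + 1) % p.K2 = 0 := Nat.dvd_iff_mod_eq_zero.1 hdvd
      have e2 : (q + 1) / p.K2 = q / p.K2 + 1 := by rw [Nat.succ_div, if_pos hdvd]
      rw [e1, e2]
      have e0' : ((q % p.K2 : ℕ) : ℝ) + 1 = p.K2 := by exact_mod_cast e0
      have h2 := K2_rise1_le hp
      rw [← e0'] at h2
      push_cast
      linarith
  fin_cases i
  · show p.floor 0 a + p.rise 0 ≤ p.floor 0 (a + 1)
    rw [floor0_eq, floor0_eq]
    have hq : a % p.K1 < p.K1 := Nat.mod_lt _ hK1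
    set b := a - a % p.K1 with hb
    have hbd : p.K1 ∣ b := Nat.dvd_sub_mod a
    have hfb : p.floor 1 a = p.floor 1 b :=
      floor_eq_of_period hp (i := 1) hbd (Nat.sub_le _ _) (by
        show a < b + p.K1
        omega)
    rcases Nat.lt_or_ge (a % p.K1 + 1) p.K1 with hlt | hge
    · have e1 : (a + 1) % p.K1 = a % p.K1 + 1 := by
        rw [Nat.add_mod, Nat.one_mod_eq_one.2 (by omega), Nat.mod_eq_of_lt hlt]
      have hf : p.floor 1 (a + 1) = p.floor 1 b :=
        floor_eq_of_period hp (i := 1) hbd (by omega) (by show a + 1 < b + p.K1; omega)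
      rw [e1, hf, hfb]; push_cast; linarith
    · have e0 : a % p.K1 + 1 = p.K1 := by omega
      have hb1 : a + 1 = b + p.K1 := by have := Nat.mod_le a p.K1; omega
      have e1 : (a + 1) % p.K1 = 0 := by
        rw [hb1, Nat.add_mod_right]; exact Nat.eq_zero_of_dvd_of_lt
          ((Nat.dvd_mod_iff (dvd_refl _)).2 hbd) (Nat.mod_lt _ hK1)
      have e0' : ((a % p.K1 : ℕ) : ℝ) + 1 = p.K1 := by exact_mod_cast e0
      have h2 := K1_rise0_le hp
      rw [← e0'] at h2
      rw [e1, hfb, hb1]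
      have := h1 b hbd
      push_cast
      linarith
  · exact h1 a ha
  · exact (floor2_step hp).le

end Vale.Agent.P078.Local
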