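import Vale.Agent.P078.Local.Moves.Congr
import Vale.Agent.P078.Local.Moves.Floor
import Vale.Agent.P078.Local.Period.Main
import Vale.Agent.P078.Local.Period.Mart
import Vale.Agent.P078.Local.Flip.Product

/-!
# Failed start tests are paid by the drop of `Φ` (sec. 7 of the note, SKIPS)
-/

noncomputable section

namespace Vale.Agent.P078.Local

open Finset

variable {ι : Type*} [Fintype ι] [DecidableEq ι] {p : Par} {N : Net ι p.D}
  {ω : Seeds ι p} {o : ι} {i : Fin 3} {s : Bool} {a : ℕ}

open Classical in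
/-- The potential of level `i` and sign `s` at phase `a`. -/
def pot (N : Net ι p.D) (ω : Seeds ι p) (o : ι) (i : Fin 3) (s : Bool) (a : ℕ) (σ : Coins ι p) : ℝ :=
  if GoodTo p N ω σ o a then
    Phi (N.ball o (p.R i)) (stateAt p N ω σ a).h (fun _ => p.floor i a + p.rise i / 4) (N.xs s) o
  else 0

open Classical in
/-- The same half a rise higher. -/
def potA (N : Net ι p.D) (ω : Seeds ι p) (o : ι) (i : Fin 3) (s : Bool) (a : ℕ) (σ : Coins ι p) : ℝ :=
  if GoodTo p N ω σ o a then
    Phi (N.ball o (p.R i)) (stateAt p N ω σ a).h (fun _ => p.floor i a + p.rise i / 2) (N.xs s) o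
  else 0

/-- A failed start test on a good history. -/
def failAt (N : Net ι p.D) (ω : Seeds ι p) (o : ι) (i : Fin 3) (s : Bool) (a : ℕ) (σ : Coins ι p) :
    Prop :=
  GoodTo p N ω σ o a ∧ ¬ startOK p N i s (p.floor i a) (stateAt p N ω σ a).h o

/-- The good event gives the period context at `o`. -/
theorem goodTo_ctx (hC : Iface.StmtChain (ι := ι) p) (hp : p.Ok) (hs : Iface.StartOK p N o)
    {σ : Coins ι p} (hd : p.len i ∣ a) (ha : a + p.len i ≤ p.Nph) (hg : GoodTo p N ω σ o a) :
    PerCtx p N (stateAt p N ω σ a) i s a (sets p N ω σ o s a i) ∧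
      N.ball o p.rt ⊆ sets p N ω σ o s a i :=
  ⟨⟨hp, hd, ha, stateAt_isLaw ω σ hp a, hC hp N ω σ o s a i hs (by omega) hd⟩, hg.1 a le_rfl i s⟩

theorem ball_valid (hC : Iface.StmtChain (ι := ι) p) (hp : p.Ok) (hs : Iface.StartOK p N o)
    {σ : Coins ι p} (hd : p.len i ∣ a) (ha : a ≤ p.Nph) (hg : GoodTo p N ω σ o a) :
    Valid (N.ball o (p.R i)) (stateAt p N ω σ a).h (fun _ => p.floor i a) (N.xs s) :=
  (hC hp N ω σ o s a i hs ha hd).subset (fun u _ => stateAt_isLaw ω σ hp a u (mem_univ u))
    ((N.ball_mono (by have := hp.rt_ge i; omega)).trans (hg.1 a le_rfl i s))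

theorem pot_nonneg (hC : Iface.StmtChain (ι := ι) p) (hp : p.Ok) (hs : Iface.StartOK p N o)
    (hd : p.len i ∣ a) (ha : a ≤ p.Nph) (σ : Coins ι p) : 0 ≤ pot N ω o i s a σ := by
  classical
  unfold pot
  split
  · next hg =>
    have hv := ball_valid (s := s) hC hp hs hd ha hg
    have hl : IsLaw (N.ball o (p.R i)) (stateAt p N ω σ a).h := fun u _ =>
      stateAt_isLaw ω σ hp a u (mem_univ u)
    exact (Slice.phi_pos hl (N.mem_ball_self o _) (hv.mono hl fun u _ => by
      linarith [Par.rise_pos hp i])).le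
  · exact le_rfl

/-- The drop in one period pays for a failed test. -/
theorem fail_le_drop (hC : Iface.StmtChain (ι := ι) p) (hp : p.Ok) (hs : Iface.StartOK p N o)
    (hd : p.len i ∣ a) (ha : a ≤ p.Nph) (σ : Coins ι p) [Decidable (failAt N ω o i s a σ)] :
    p.M * (p.rise i / 4) * (if failAt N ω o i s a σ then 1 else 0) + potA N ω o i s a σ
      ≤ pot N ω o i s a σ := by
  classical
  by_cases hg : GoodTo p N ω σ o a
  swap
  · simp [failAt, potA, pot, hg]
  have hv := ball_valid (s := s) hC hp hs hd ha hg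
  have hl : IsLaw (N.ball o (p.R i)) (stateAt p N ω σ a).h := fun u _ =>
    stateAt_isLaw ω σ hp a u (mem_univ u)
  have hρ := Par.rise_pos hp i
  simp only [potA, pot, if_pos hg]
  split
  · next hf =>
    have h2 : ¬ (Phi (N.ball o (p.R i)) (stateAt p N ω σ a).h (fun _ => p.floor i a + p.rise i / 4)
        (N.xs s) o - Phi (N.ball o (p.R i)) (stateAt p N ω σ a).h
          (fun _ => p.floor i a + p.rise i / 2) (N.xs s) o) / (p.rise i / 4) ≤ p.M :=
      fun h => hf.2 ⟨hv, h⟩
    rw [not_le, lt_div_iff₀ (by linarith)] at h2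
    linarith
  · have hanti := Slice.phi_anti (Z' := fun _ => p.floor i a + p.rise i / 2) hl (N.mem_ball_self o _)
      (hv.mono hl (Z' := fun _ => p.floor i a + p.rise i / 4) fun u _ => by linarith)
      fun u _ => by linarith
    linarith

/-- On a good period the next potential is below the end of the exact martingale. -/
theorem pot_next_le (hC : Iface.StmtChain (ι := ι) p) (hp : p.Ok) (hs : Iface.StartOK p N o)
    (hd : p.len i ∣ a) (ha : a + p.len i ≤ p.Nph) (σ : Coins ι p) (hg : GoodTo p N ω σ o a) :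
    pot N ω o i s (a + p.len i) σ ≤
      Phi (sets p N ω σ o s a i)
        (axRun p N ω σ i s a (sets p N ω σ o s a i) (stateAt p N ω σ a) (seg p ω a (a + p.len i))).2.h
        (axRun p N ω σ i s a (sets p N ω σ o s a i) (stateAt p N ω σ a) (seg p ω a (a + p.len i))).2.Z
        (N.xs s) o := by
  classical
  set S := sets p N ω σ o s a i
  set L := seg p ω a (a + p.len i)
  obtain ⟨hc, hrt⟩ := goodTo_ctx (s := s) hC hp hs hd ha hg
  have hoS : o ∈ S := hrt (N.mem_ball_self o _)
  have hR := hp.rt_ge i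
  have hR4 := hp.R_ge i
  have hv := (hc.valid_crude ω σ L.length).1
  rw [List.take_length] at hv
  have hlaw := axRun_isLaw (N := N) ω (stateAt p N ω σ a) σ (i := i) (s := s) (a := a) (S := S)
    hp (stateAt_isLaw ω σ hp a) L
  unfold pot
  split
  swap
  · exact (Slice.phi_pos (fun u _ => hlaw u (mem_univ u)) hoS hv).le
  next hg' =>
  set V : ℕ → Finset ι := fun j => N.ball o ((10 - j) * p.R i) with hV
  have hV0 : V 0 ⊆ core p N i S := fun u hu => by
    refine mem_sdiff.2 ⟨hrt (N.ball_mono (by omega) hu), N.notMem_nbhd_iff.2 ?_⟩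
    refine disjoint_left.2 fun v hv' hvS => (mem_sdiff.1 hvS).2 (hrt ?_)
    exact N.ball_mono (by omega) (N.ball_trans hu hv')
  have hV0e : Disjoint (V 0) (perEx p N ω σ i s a S (stateAt p N ω σ a)) :=
    (hg'.2 i s a hd le_rfl).mono_left (N.ball_mono (by omega))
  have hnest : ∀ j < 9, N.nbhd (V (j + 1)) (p.R i) ⊆ V j := fun j hj u hu => by
    obtain ⟨v, hv', huv⟩ := N.mem_nbhd_iff.1 hu
    refine N.ball_mono ?_ (N.ball_trans hv' huv)
    calc (10 - (j + 1)) * p.R i + p.R i = ((10 - (j + 1)) + 1) * p.R i := by ring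
      _ ≤ (10 - j) * p.R i := Nat.mul_le_mul_right _ (by omega)
  have hz := zbound_of ω σ lineStmt Slice.order Slice.tail hc V hV0 hV0e hnest L.length
  rw [List.take_length] at hz
  set q := axRun p N ω σ i s a S (stateAt p N ω σ a) L
  set B := N.ball o (p.R i) with hB
  have hB9 : V 9 = B := by simp [hV, hB]
  have heq : ∀ u ∈ B, q.2.h u = (stateAt p N ω σ (a + p.len i)).h u := fun u hu => by
    have hu0 : u ∈ V 0 := N.ball_mono (by omega) hu
    rw [stateAt_split ω σ (Nat.le_add_right a (p.len i))]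
    refine (ax_h_eq (N := N) ω (stateAt p N ω σ a) σ L u).1 (hV0 hu0) fun hx => ?_
    exact disjoint_left.1 hV0e hu0 hx
  have hBS : B ⊆ S := (N.ball_mono (by omega)).trans hrt
  have hoB : o ∈ B := N.mem_ball_self o _
  have hlB : IsLaw B q.2.h := fun u _ => hlaw u (mem_univ u)
  have hρ := Par.rise_pos hp i
  have hstep := floor_step hp hd
  have hvB := hv.subset (fun u _ => hlaw u (mem_univ u)) hBS
  calc Phi B (stateAt p N ω σ (a + p.len i)).h
        (fun _ => p.floor i (a + p.len i) + p.rise i / 4) (N.xs s) o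
      = Phi B q.2.h (fun _ => p.floor i (a + p.len i) + p.rise i / 4) (N.xs s) o := by
        have hk : ∀ U ⊆ B, qR U (stateAt p N ω σ (a + p.len i)).h
            (fun _ => p.floor i (a + p.len i) + p.rise i / 4) (N.xs s)
            = qR U q.2.h (fun _ => p.floor i (a + p.len i) + p.rise i / 4) (N.xs s) := fun U hU => by
          simp only [qR]
          rw [q_congr (fun u hu => (heq u (hU hu)).symm) (fun _ _ => rfl) (fun _ _ _ _ => rfl)]
        simp only [Phi, hk B subset_rfl, hk _ (erase_subset o B)]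
    _ ≤ Phi B q.2.h q.2.Z (N.xs s) o := Slice.phi_anti hlB hoB hvB fun u hu => by
        have := (abs_le.1 (hz u (hB9 ▸ hu))).2
        linarith
    _ ≤ Phi S q.2.h q.2.Z (N.xs s) o :=
        Slice.phi_mono_set (fun u _ => hlaw u (mem_univ u)) hBS hoB hv

/-- **One period of telescoping.** -/
theorem avg_pot_next_le (hC : Iface.StmtChain (ι := ι) p) (hp : p.Ok) (hs : Iface.StartOK p N o)
    (hd : p.len i ∣ a) (ha : a + p.len i ≤ p.Nph) :
    avg (pot N ω o i s (a + p.len i)) ≤ avg (potA N ω o i s a) + p.tl i := by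
  classical
  set B : Finset (Slot ι p) :=
    univ.filter fun sl => a ≤ (sl.1 : ℕ) ∧ (sl.1 : ℕ) < a + p.len i with hB
  rw [avg_resample B (pot N ω o i s (a + p.len i))]
  rw [← avg_const (α := Coins ι p) (p.tl i), ← avg_add]
  refine avg_mono fun σ => ?_
  have hag : ∀ τ : Coins ι p, AgreeTo (B.piecewise τ σ) σ a := fun τ sl hsl => by
    rw [Finset.piecewise_eq_of_notMem]
    simp only [hB, mem_filter, mem_univ, true_and, not_and]
    omega
  by_cases hg : GoodTo p N ω σ o a
  swap
  · refine le_trans (le_of_eq ?_) (add_nonneg ?_ ?_)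
    · refine Eq.trans ?_ (avg_const (α := Coins ι p) 0)
      congr 1
      funext τ
      unfold pot
      rw [if_neg fun h => hg ((goodTo_congr hp o (hag τ)).1 (h.mono (Nat.le_add_right _ _)))]
    · simp [potA, hg]
    · exact mul_nonneg (by have := Par.rise_pos hp i; positivity) (Real.exp_pos _).le
  set S := sets p N ω σ o s a i
  set st := stateAt p N ω σ a
  set L := seg p ω a (a + p.len i)
  obtain ⟨hc, hrt⟩ := goodTo_ctx (s := s) hC hp hs hd ha hg
  have hoS : o ∈ S := hrt (N.mem_ball_self o _)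
  have hpt : ∀ τ : Coins ι p, pot N ω o i s (a + p.len i) (B.piecewise τ σ) ≤
      Phi S (axRun p N ω τ i s a S st L).2.h (axRun p N ω τ i s a S st L).2.Z (N.xs s) o := by
    intro τ
    have := pot_next_le (i := i) (s := s) hC hp hs hd ha _ ((goodTo_congr hp o (hag τ)).2 hg)
    rw [stateAt_congr (hag τ) le_rfl, sets_congr hp o s (hag τ) a le_rfl,
      axRun_congr_coins ω (τ := τ) L fun sl hsl => Finset.piecewise_eq_of_mem _ _ _ (by
        simpa [hB] using (mem_seg ω).1 hsl)] at this
    exact this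
  refine (avg_mono hpt).trans ?_
  rw [avg_phi_axRun ω hc hoS]
  simp only [potA, if_pos hg]
  have hBall : N.ball o (p.R i) ⊆ S := (N.ball_mono (by have := hp.rt_ge i; omega)).trans hrt
  have hA := hc.A_le
  have hρ := Par.rise_pos hp i
  have := (Slice.tail p.D N s S st.h (fun _ => p.floor i a + p.rise i / 2) o (p.R i) (p.rise i / 8)
    (fun u _ => hc.law u (mem_univ u)) (hp.R_ge i) (by linarith) (by linarith [Par.rise_le hp i])
    (fun u _ => by linarith) hBall
    (hc.valid.mono (fun u _ => hc.law u (mem_univ u)) fun u _ => by linarith)).1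
  exact this

theorem avg_pot_zero_le (_hC : Iface.StmtChain (ι := ι) p) (hp : p.Ok) (hs : Iface.StartOK p N o) :
    avg (pot N ω o i s 0) ≤ 2 / p.t0 := by
  classical
  rw [← avg_const (α := Coins ι p) (2 / p.t0)]
  refine avg_mono fun σ => ?_
  unfold pot
  split
  swap
  · have := hp.t0_pos; positivity
  next hg =>
  have hst : stateAt p N ω σ 0 = init p := by simp [stateAt, seg_self, runOn]
  have hfl : p.floor i 0 = p.t0 := by
    fin_cases i <;> simp [Par.floor]
  rw [hst, hfl]
  have hl : IsLaw (N.ball o (p.R i)) (init (ι := ι) p).h := fun u _ =>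
    init_isLaw (by have := hp.r_ge; omega) u (mem_univ u)
  have hρ := Par.rise_pos hp i
  have hv := (hs s).subset (fun u _ => init_isLaw (by have := hp.r_ge; omega) u (mem_univ u))
    (N.ball_mono (show p.R i ≤ p.Lg by
      have := hp.rt_ge i; have := hp.rt_le; omega) (l := o))
  have ht := hp.t0_pos
  refine (Slice.phi_le_inv_margin hl (N.mem_ball_self o _) (g := p.t0 / 2) (by linarith)
    (hv.mono hl fun u _ => by linarith)).trans (le_of_eq ?_)
  field_simp

open Classical in
/-- **Skips.** The expected number of failed periods. -/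
theorem sum_prob_fail_le (hC : Iface.StmtChain (ι := ι) p) (hp : p.Ok) (hs : Iface.StartOK p N o) :
    p.M * (p.rise i / 4) * ∑ j ∈ range (p.Nph / p.len i), prob (failAt N ω o i s (j * p.len i))
      ≤ 3 / p.t0 := by
  have hl := len_pos hp i
  have hmul : p.Nph / p.len i * p.len i = p.Nph := Nat.div_mul_cancel (len_dvd_Nph i)
  have key : ∀ n ≤ p.Nph / p.len i,
      p.M * (p.rise i / 4) * ∑ j ∈ range n, prob (failAt N ω o i s (j * p.len i))
        + avg (pot N ω o i s (n * p.len i)) ≤ avg (pot N ω o i s 0) + n * p.tl i := by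
    intro n
    induction n with
    | zero => intro _; simp
    | succ n ih =>
      intro hn
      have han : n * p.len i + p.len i ≤ p.Nph := by
        rw [← hmul, ← Nat.succ_mul]; exact Nat.mul_le_mul_right _ hn
      have h1 := avg_pot_next_le (i := i) (s := s) (ω := ω) hC hp hs (Dvd.intro_left n rfl) han
      have h2 : p.M * (p.rise i / 4) * prob (failAt N ω o i s (n * p.len i))
          + avg (potA N ω o i s (n * p.len i)) ≤ avg (pot N ω o i s (n * p.len i)) := by
        rw [prob, ← avg_const_mul, ← avg_add]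
        exact avg_mono fun σ => fail_le_drop hC hp hs (Dvd.intro_left n rfl) (by omega) σ
      rw [sum_range_succ, mul_add, show (n + 1) * p.len i = n * p.len i + p.len i by ring]
      push_cast
      linarith [ih (by omega)]
  have h := key _ le_rfl
  have h0 : 0 ≤ avg (pot N ω o i s (p.Nph / p.len i * p.len i)) := avg_nonneg fun σ =>
    pot_nonneg hC hp hs (Dvd.intro_left _ rfl) hmul.le σ
  have hn : (((p.Nph / p.len i : ℕ)) : ℝ) * p.tl i ≤ 1 := by
    refine le_trans (mul_le_mul_of_nonneg_right (Nat.cast_le.2 (Nat.div_le_self _ _)) ?_) (hp.tl_sum i)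
    exact mul_nonneg (by have := Par.rise_pos hp i; positivity) (Real.exp_pos _).le
  have ht := hp.t0_pos
  have h1 : (1 : ℝ) ≤ 1 / p.t0 := by rw [le_div_iff₀ ht]; linarith [hp.t0_le]
  have := avg_pot_zero_le (i := i) (s := s) (ω := ω) hC hp hs
  have e : 3 / p.t0 = 2 / p.t0 + 1 / p.t0 := by ring
  rw [e]
  linarith

end Vale.Agent.P078.Local
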